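import Vale.Agent.P333.PT.Final73
import Vale.Agent.P333.PT.T23E2
import Vale.Agent.P333.T.Main
import Vale.Agent.P333.CombDelta
import Vale.Agent.P333.CombThree
import Vale.Agent.P333.CombFalse

/-!
P333: four theorems on the shortest common superstring problem: a polynomial time algorithm with
ratio `7 / 3`, the `(3 - δ)` reduction to maximum compression, greedy is a `3`-approximation,
and greedy is not a `2.025`-approximation.
-/

namespace Vale.Agent.Results.P333.Combined

open Vale.Agent.P333 Vale.Agent.P333.PT Vale.Agent.P333.ST Vale.Agent.P333.Comb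

universe u

/-- (A) A polynomial time Turing machine computes, for every finite list `X` of words over `ℕ`, a
common superstring of length at most `(7 / 3) |T|` for every common superstring `T` of `X`.

(B) Let `S` be a finite family of strings. `reduced S` has a minimum cycle cover, and every cycle
cover has an opening. Let `σ` be a minimum cycle cover, `B` an opening of `σ`, and `W` the family
of the merged words of the cycles. For every common superstring `T` of `S`: `cost σ ≤ |T|`,
`‖W‖ ≤ 2 cost σ + |T|`, and `W` has a common superstring of length at most `|T| + cost σ`. Every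
`δ`-approximation `G` for the maximum compression of `W` (`0 ≤ δ ≤ 1`) is a common superstring of
`S` with `|G| ≤ (3 - δ) |T|`.

(C) Greedy has an output on `S` if `S` is nonempty, and every output `G` of greedy is a common
superstring of `S` with `|G| ≤ 3 |T|` for every common superstring `T` of `S`.

(D) Over every alphabet with at least two letters and for every `N` there are a family `S` and a
common superstring `T` of `S` such that every common superstring of `S` has length at least `N`,
greedy has an output on `S`, and every output `G` of greedy satisfies `711 |G| = 1440 |T|` and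
`|G| > 2 |T| + N`. -/
theorem result :
    (∃ f : List (List ℕ) → List ℕ,
      (∃ c : Turing.TM2ComputableInPolyTime encFam encWord f, ∀ k, Finite (c.tm.Γ k)) ∧
      ∀ X : List (List ℕ), (∀ x ∈ X, x <:+: f X) ∧
        ∀ T : List ℕ, (∀ x ∈ X, x <:+: T) → 3 * (f X).length ≤ 7 * T.length) ∧
    (∀ (α : Type u) [DecidableEq α] (S : Finset (List α)),
      ((∃ σ : Equiv.Perm (reduced S), IsMin σ) ∧
        ∀ σ : Equiv.Perm (reduced S), ∃ B : Finset (reduced S), IsOpening σ B) ∧
      ∀ σ : Equiv.Perm (reduced S), IsMin σ → ∀ B : Finset (reduced S), IsOpening σ B →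
        (∀ T : List α, IsSuper S T →
          cost σ ≤ T.length ∧ total (opened σ B) ≤ 2 * cost σ + T.length ∧
          ∃ H : List α, IsSuper (opened σ B) H ∧ H.length ≤ T.length + cost σ) ∧
        ∀ (δ : ℝ), 0 ≤ δ → δ ≤ 1 → ∀ G : List α, IsApprox δ (opened σ B) G →
          IsSuper S G ∧ ∀ T : List α, IsSuper S T → (G.length : ℝ) ≤ (3 - δ) * T.length) ∧
    (∀ (α : Type u) [DecidableEq α] (S : Finset (List α)),
      (S.Nonempty → ∃ G, IsGreedyOutput S G) ∧
      ∀ G, IsGreedyOutput S G →
        (∀ s ∈ S, s <:+: G) ∧
        ∀ T : List α, (∀ s ∈ S, s <:+: T) → G.length ≤ 3 * T.length) ∧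
    (∀ (α : Type u) [DecidableEq α] [Nontrivial α] (N : ℕ),
      ∃ (S : Finset (List α)) (T : List α),
        (∀ s ∈ S, s <:+: T) ∧
        (∀ U : List α, (∀ s ∈ S, s <:+: U) → N ≤ U.length) ∧
        (∃ G : List α, IsGreedyOutput S G) ∧
        ∀ G : List α, IsGreedyOutput S G →
          711 * G.length = 1440 * T.length ∧ 2 * T.length + N < G.length) :=
  ⟨explicit73_of T23.boxP_23 (fun _ _ _ hC => Vale.Agent.P333.T.atsp_perm hC)
      (fun _ _ _ hC => Vale.Agent.P333.T.atsp_links hC),
    fun _ _ S => threeDelta S,
    fun _ _ S => ⟨(greedyThree S).1, fun G hG =>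
      ⟨((greedyThree S).2 G hG).1, ((greedyThree S).2 G hG).2.1⟩⟩,
    fun _ _ _ N => greedyFalse N⟩

end Vale.Agent.Results.P333.Combined
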