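import Vale.Agent.P333.PT.Final73
import Vale.Agent.P333.PT.T23E2
import Vale.Agent.P333.T.Main

/-!
P333: the shortest common superstring problem has a polynomial time approximation algorithm
(a Turing machine in the sense of Mathlib) with ratio `7 / 3`.
-/

namespace Vale.Agent.Results.P333.ExplicitTM

open Vale.Agent.P333 Vale.Agent.P333.PT

/-- There is a polynomial time Turing machine which computes, for every finite list `X` of words
over the alphabet `ℕ`, a word `f X` that contains every word of `X` as a contiguous subword and
satisfies `|f X| ≤ (7 / 3) |T|` for every common superstring `T` of `X`. -/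
theorem result :
    ∃ f : List (List ℕ) → List ℕ,
      (∃ c : Turing.TM2ComputableInPolyTime encFam encWord f, ∀ k, Finite (c.tm.Γ k)) ∧
      ∀ X : List (List ℕ), (∀ x ∈ X, x <:+: f X) ∧
        ∀ T : List ℕ, (∀ x ∈ X, x <:+: T) → 3 * (f X).length ≤ 7 * T.length :=
  explicit73_of T23.boxP_23 (fun _ _ _ hC => T.atsp_perm hC) (fun _ _ _ hC => T.atsp_links hC)

end Vale.Agent.Results.P333.ExplicitTM
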